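import Vale.Agent.P078.Semi0

/-! The expected part of a maximal abelian subalgebra; algebras generated by semifinite
intermediate algebras. -/

namespace Vale.Agent.P078.SO

universe u

variable {H : Type u} [NormedAddCommGroup H] [InnerProductSpace ℂ H] [CompleteSpace H]

/-- There is a normal conditional expectation of `z M z` onto `A z`. -/
def HasExpectation (M A : VonNeumannAlgebra H) (z : H →L[ℂ] H) : Prop :=
  ∃ E, IsNormalExpectation M A z E

/-- `z` is the largest projection of `A` such that `A z` is the range of a normal conditional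
expectation of `z M z`. -/
def IsExpectedPart (M A : VonNeumannAlgebra H) (z : H →L[ℂ] H) : Prop :=
  (z ∈ A ∧ IsStarProjection z ∧ HasExpectation M A z) ∧
    ∀ p ∈ A, IsStarProjection p → HasExpectation M A p → p ≤ z

/-- `M` is generated, as a von Neumann algebra, by an upward directed family `𝒩` of intermediate
von Neumann algebras `A ⊆ N ⊆ M` whose corners `z N z` are semifinite: every operator commuting
with all of them commutes with `M`. -/
def IsSemifiniteLimit (M A : VonNeumannAlgebra H) (z : H →L[ℂ] H) : Prop :=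
  ∃ 𝒩 : Set (VonNeumannAlgebra H), 𝒩.Nonempty ∧
    (∀ N₁ ∈ 𝒩, ∀ N₂ ∈ 𝒩, ∃ N ∈ 𝒩, (∀ y ∈ N₁, y ∈ N) ∧ ∀ y ∈ N₂, y ∈ N) ∧
    (∀ N ∈ 𝒩, (∀ a ∈ A, a ∈ N) ∧ (∀ y ∈ N, y ∈ M) ∧ IsSemifinite N z) ∧
    ∀ T : H →L[ℂ] H, (∀ N ∈ 𝒩, ∀ y ∈ N, T * y = y * T) → ∀ x ∈ M, T * x = x * T

end Vale.Agent.P078.SO
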