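import Mathlib
import Vale.Agent.P078.Bdl.B10

set_option linter.unusedSectionVars false

/-! The normal functionals commuting with `A` are faithful on the expected corner. -/

namespace Vale.Agent.P078.L

open Vale.Agent.P078
open Filter Topology
open scoped ComplexOrder

variable {H : Type*} [NormedAddCommGroup H] [InnerProductSpace ℂ H] [CompleteSpace H]
variable {M : VonNeumannAlgebra H} {A : StarSubalgebra ℂ (H →L[ℂ] H)}

/-- spectral projections of a positive element of `M` -/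
theorem exists_spec {x : H →L[ℂ] H} (hx : x ∈ M) (hx0 : 0 ≤ x) (t : ℝ) :
    ∃ g ∈ M, IsStarProjection g ∧ (t : ℂ) • g ≤ x ∧
      (∀ y : H →L[ℂ] H, y * x = x * y → y * g = g * y) ∧
      (∀ ζ, g ζ = ζ → t * ‖ζ‖ ^ 2 ≤ (inner ℂ ζ (x ζ)).re) ∧
      (∀ ζ, g ζ = 0 → (inner ℂ ζ (x ζ)).re ≤ t * ‖ζ‖ ^ 2) := by
  have hxs : IsSelfAdjoint x := IsSelfAdjoint.of_nonneg hx0
  obtain ⟨e, hep, hec, he1, he2⟩ := exists_spectral_proj x hxs t
  have hbe : x * e = e * x := hec x rfl
  have hee : e * e = e := hep.isIdempotentElem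
  have hsa : IsSelfAdjoint ((t : ℂ) • e) := by
    rw [IsSelfAdjoint, star_smul, hep.isSelfAdjoint.star_eq, Complex.star_def,
      Complex.conj_ofReal]
  refine ⟨e, spectral_proj_mem hx hec, hep, ?_, hec, he1, he2⟩
  rw [← sub_nonneg]
  refine nonneg_of_inner (hxs.sub hsa) fun ζ => ?_
  rw [sub_apply, inner_sub_right, Complex.sub_re, smul_apply, inner_smul_right,
    Complex.re_ofReal_mul, proj_inner_self hep]
  have h1 := he1 (e ζ) (proj_apply_apply hep ζ)
  have h2 : (inner ℂ ζ (x ζ)).re = (inner ℂ (e ζ) (x (e ζ))).re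
      + (inner ℂ (ζ - e ζ) (x (ζ - e ζ))).re := by
    have e1 : x = e * x * e + (1 - e) * x * (1 - e) := by
      have : (1 - e) * x * (1 - e) = x - x * e - e * x + e * x * e := by noncomm_ring
      rw [this, mul_assoc e x e, hbe, ← mul_assoc, hee]; abel
    have e2 : inner ℂ (e ζ) (x (e ζ)) = inner ℂ ζ ((e * x * e) ζ) := proj_inner hep _ _
    have e3 : inner ℂ (ζ - e ζ) (x (ζ - e ζ)) = inner ℂ ζ (((1 - e) * x * (1 - e)) ζ) :=
      proj_inner hep.one_sub _ _
    rw [e2, e3, ← Complex.add_re, ← inner_add_right, ← add_apply, ← e1]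
  have h3 : 0 ≤ (inner ℂ (ζ - e ζ) (x (ζ - e ζ))).re := inner_nonneg_of_nonneg hx0 _
  linarith

/-- a positive element whose spectral projections vanish is zero -/
theorem eq_zero_of_spec {x : H →L[ℂ] H} (hx : x ∈ M) (hx0 : 0 ≤ x)
    (h : ∀ t : ℝ, 0 < t → ∀ g ∈ M, IsStarProjection g → (t : ℂ) • g ≤ x →
      (∀ y : H →L[ℂ] H, y * x = x * y → y * g = g * y) →
      (∀ ζ, g ζ = ζ → t * ‖ζ‖ ^ 2 ≤ (inner ℂ ζ (x ζ)).re) → g = 0) : x = 0 := by
  have hxs : IsSelfAdjoint x := IsSelfAdjoint.of_nonneg hx0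
  have h1 : 0 ≤ -x := by
    refine nonneg_of_inner hxs.neg fun ζ => ?_
    rw [neg_apply, inner_neg_right, Complex.neg_re, neg_nonneg]
    refine le_of_forall_pos_le_add fun ε hε => ?_
    obtain ⟨g, hgM, hgp, hle, hc, hg1, hg2⟩ := exists_spec hx hx0 (ε / (‖ζ‖ ^ 2 + 1))
    have hg0 := h _ (by positivity) g hgM hgp hle hc hg1
    have h2 := hg2 ζ (by rw [hg0]; rfl)
    refine h2.trans ?_
    rw [zero_add, div_mul_eq_mul_div, div_le_iff₀ (by positivity)]
    nlinarith [sq_nonneg ‖ζ‖]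
  exact le_antisymm (neg_nonneg.1 h1) hx0

/-- null elements -/
def Nul (M : VonNeumannAlgebra H) (A : StarSubalgebra ℂ (H →L[ℂ] H)) (x : H →L[ℂ] H) : Prop :=
  ∀ ψ : (H →L[ℂ] H) →ₗ[ℂ] ℂ, CentralNormal M A ψ → ψ x = 0

theorem Nul.of_le {x y : H →L[ℂ] H} (hx : x ∈ M) (hy : y ∈ M) (hx0 : 0 ≤ x) (hxy : x ≤ y)
    (h : Nul M A y) : Nul M A x :=
  fun ψ hψ => hψ.mono hx hy hxy (h ψ hψ) hx0

theorem smul_proj_nonneg {g : H →L[ℂ] H} (hg : IsStarProjection g) {t : ℝ} (ht : 0 ≤ t) :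
    0 ≤ (t : ℂ) • g := by
  refine nonneg_of_inner ?_ fun ζ => ?_
  · rw [IsSelfAdjoint, star_smul, hg.isSelfAdjoint.star_eq, Complex.star_def,
      Complex.conj_ofReal]
  · rw [smul_apply, inner_smul_right, Complex.re_ofReal_mul, proj_inner_self hg]
    positivity

theorem Nul.spec {x g : H →L[ℂ] H} (hx : x ∈ M) (hg : g ∈ M) (hgp : IsStarProjection g) {t : ℝ}
    (ht : 0 < t) (hle : (t : ℂ) • g ≤ x) (h : Nul M A x) : Nul M A g := by
  intro ψ hψ
  have h1 := hψ.mono (M.toStarSubalgebra.smul_mem hg _) hx hle (h ψ hψ)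
    (smul_proj_nonneg hgp ht.le)
  rw [map_smul, smul_eq_mul] at h1
  rcases mul_eq_zero.1 h1 with h2 | h2
  · exact absurd (Complex.ofReal_eq_zero.1 h2) ht.ne'
  · exact h2

/-- a maximal null projection of `M` -/
theorem exists_max (M : VonNeumannAlgebra H) (A : StarSubalgebra ℂ (H →L[ℂ] H)) :
    ∃ m ∈ M, IsStarProjection m ∧ Nul M A m ∧
      ∀ g ∈ M, IsStarProjection g → Nul M A g → m ≤ g → g ≤ m := by
  obtain ⟨S, hS⟩ : ∃ S : Set (H →L[ℂ] H),
    S = {g | g ∈ M ∧ IsStarProjection g ∧ Nul M A g} := ⟨_, rfl⟩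
  obtain ⟨m, hm⟩ := zorn_le₀ S (fun c hcS hc => by
    rcases c.eq_empty_or_nonempty with h0 | hne
    · refine ⟨0, ?_, fun x hx => ?_⟩
      · rw [hS]
        exact ⟨zero_mem M, IsStarProjection.zero _, fun ψ _ => map_zero ψ⟩
      · rw [h0] at hx; exact absurd hx (Set.notMem_empty _)
    · have hD : ∀ g ∈ c, g ∈ M ∧ IsStarProjection g := fun g hg => by
        have := hcS hg
        rw [hS] at this
        exact ⟨this.1, this.2.1⟩
      obtain ⟨g, hgM, hgp, hlub, -⟩ := exists_sup_proj hne hc.directedOn hD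
      refine ⟨g, ?_, fun x hx => hlub.1 hx⟩
      rw [hS]
      refine ⟨hgM, hgp, fun ψ hψ => ?_⟩
      obtain ⟨l, hl1, hl2, ⟨R, hl3⟩, -, hl5⟩ := tendsto_of_isLUB hne hc.directedOn hlub
      have h1 := hψ.wcont R g l hgM (by
        filter_upwards [hl2, hl3] with d hd hd'
        exact ⟨(hD d hd).1, hd'⟩) hl5
      have h2 : Tendsto ψ l (𝓝 0) := by
        refine tendsto_const_nhds.congr' ?_
        filter_upwards [hl2] with d hd
        have := hcS hd
        rw [hS] at this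
        exact (this.2.2 ψ hψ).symm
      exact tendsto_nhds_unique h1 h2)
  have hmS := hm.prop
  rw [hS] at hmS
  refine ⟨m, hmS.1, hmS.2.1, hmS.2.2, fun g hg hgp hgn hle => hm.le_of_ge ?_ hle⟩
  rw [hS]
  exact ⟨hg, hgp, hgn⟩

/-- the maximal null projection dominates all null projections -/
theorem max_dom {m : H →L[ℂ] H} (hm : m ∈ M) (hmp : IsStarProjection m) (hmn : Nul M A m)
    (hmax : ∀ g ∈ M, IsStarProjection g → Nul M A g → m ≤ g → g ≤ m)
    {n : H →L[ℂ] H} (hn : n ∈ M) (hnp : IsStarProjection n) (hnn : Nul M A n) : n * m = n := by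
  have hmm : m * m = m := hmp.isIdempotentElem.eq
  have hnn2 : n * n = n := hnp.isIdempotentElem.eq
  have h1m : (1 - m) ∈ M := sub_mem (one_mem M) hm
  have hxM : (1 - m) * n * (1 - m) ∈ M := mul_mem (mul_mem h1m hn) h1m
  have hx0 : 0 ≤ (1 - m) * n * (1 - m) := conj_nonneg' hmp.one_sub hnp.nonneg
  -- the compression is null
  have hxn : Nul M A ((1 - m) * n * (1 - m)) := by
    intro ψ hψ
    have hpos : PosOn M ψ := hψ.nonneg
    have key : ∀ y ∈ M, ψ (y * n) = 0 := by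
      intro y hy
      have h1 := hpos.cauchy (x := n) (y := star y) hn (star_mem hy)
      rw [star_star, hnp.isSelfAdjoint.star_eq, hnn2, hnn ψ hψ, Complex.zero_re, mul_zero] at h1
      have h2 : ‖ψ (y * n)‖ = 0 := by nlinarith [norm_nonneg (ψ (y * n))]
      exact norm_eq_zero.1 h2
    have key2 : ∀ y ∈ M, ψ (n * y) = 0 := by
      intro y hy
      have h1 := key (star y) (star_mem hy)
      have h2 := hpos.map_star (mul_mem (star_mem hy) hn)
      rw [h1, map_zero, star_mul, star_star, hnp.isSelfAdjoint.star_eq] at h2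
      exact h2
    have key3 : ∀ y ∈ M, ψ (y * m) = 0 := by
      intro y hy
      have h1 := hpos.cauchy (x := m) (y := star y) hm (star_mem hy)
      rw [star_star, hmp.isSelfAdjoint.star_eq, hmm, hmn ψ hψ, Complex.zero_re, mul_zero] at h1
      have h2 : ‖ψ (y * m)‖ = 0 := by nlinarith [norm_nonneg (ψ (y * m))]
      exact norm_eq_zero.1 h2
    have e : (1 - m) * n * (1 - m) = (1 - m) * n - ((1 - m) * n) * m := by
      rw [mul_sub, mul_one]
    rw [e, map_sub, key _ h1m, key3 _ (mul_mem h1m hn), sub_zero]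
  have hx : (1 - m) * n * (1 - m) = 0 := by
    refine eq_zero_of_spec hxM hx0 fun t ht g hg hgp hle hcomm hg1 => ?_
    have hgn := hxn.spec hxM hg hgp ht hle
    have h1m' : m * (1 - m) = 0 := by rw [mul_sub, mul_one, hmm, sub_self]
    have hmx : m * ((1 - m) * n * (1 - m)) = 0 := by
      rw [← mul_assoc, ← mul_assoc, h1m', zero_mul, zero_mul]
    have hm1 : (1 - m) * m = 0 := by rw [sub_mul, one_mul, hmm, sub_self]
    have hxm : (1 - m) * n * (1 - m) * m = 0 := by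
      rw [mul_assoc, hm1, mul_zero]
    have hmg : m * g = g * m := hcomm m (by rw [hmx, hxm])
    have hmg0 : m * g = 0 := by
      ext v
      have h1 : g ((m * g) v) = (m * g) v := by
        change g (m (g v)) = m (g v)
        have h2 := DFunLike.congr_fun hmg (g v)
        have h3 : m (g (g v)) = g (m (g v)) := h2
        rw [← h3, proj_apply_apply hgp]
      have h2 := hg1 _ h1
      have h3 : ((1 - m) * n * (1 - m)) ((m * g) v) = 0 := DFunLike.congr_fun hxm (g v)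
      rw [h3, inner_zero_right, Complex.zero_re] at h2
      have h4 : ‖(m * g) v‖ = 0 := by
        by_contra hne
        have : 0 < ‖(m * g) v‖ := lt_of_le_of_ne (norm_nonneg _) (Ne.symm hne)
        have := mul_pos ht (pow_pos this 2)
        linarith
      rw [zero_apply]
      exact norm_eq_zero.1 h4
    have hgm0 : g * m = 0 := by rw [← hmg, hmg0]
    have h1 := hmax (m + g) (add_mem hm hg) ?_ ?_ (le_add_of_nonneg_right hgp.nonneg)
    · have h2 : g ≤ 0 := by
        have := sub_nonneg.2 h1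
        rw [sub_add_cancel_left] at this
        exact neg_nonneg.1 this
      exact le_antisymm h2 hgp.nonneg
    · refine ⟨?_, hmp.isSelfAdjoint.add hgp.isSelfAdjoint⟩
      change (m + g) * (m + g) = m + g
      rw [mul_add, add_mul, add_mul, hmm, hmg0, hgm0, hgp.isIdempotentElem.eq]
      abel
    · intro ψ hψ
      rw [map_add, hmn ψ hψ, hgn ψ hψ, add_zero]
  have h2 : star (n * (1 - m)) * (n * (1 - m)) = 0 := by
    rw [star_mul, hmp.one_sub.isSelfAdjoint.star_eq, hnp.isSelfAdjoint.star_eq, ← hx]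
    calc (1 - m) * n * (n * (1 - m)) = (1 - m) * (n * n) * (1 - m) := by noncomm_ring
      _ = _ := by rw [hnn2]
  have h3 := CStarRing.star_mul_self_eq_zero_iff _ |>.1 h2
  rw [mul_sub, mul_one, sub_eq_zero] at h3
  exact h3.symm

/-- the central normal functionals are faithful on the expected corner -/
theorem faithful_of_expected (hA : IsMASA A M) {z : H →L[ℂ] H} (hz : z ∈ A)
    (hzp : IsStarProjection z) {E : (H →L[ℂ] H) →ₗ[ℂ] (H →L[ℂ] H)}
    (hE : IsNormalExpectation M A z E) {x : H →L[ℂ] H} (hx : x ∈ M) (hx0 : 0 ≤ x)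
    (hzx : z * x * z = x) (h : Nul M A x) : x = 0 := by
  obtain ⟨m, hm, hmp, hmn, hmax⟩ := exists_max M A
  have hmm : m * m = m := hmp.isIdempotentElem.eq
  have hdom : ∀ n ∈ M, IsStarProjection n → Nul M A n → n * m = n :=
    fun n hn hnp hnn => max_dom hm hmp hmn hmax hn hnp hnn
  have hcomm : ∀ e ∈ A, IsStarProjection e → m * e = e * m := by
    intro e he hep
    have heM := hA.1 he
    have hee : e * e = e := hep.isIdempotentElem.eq
    obtain ⟨u, hu⟩ : ∃ u, u = 1 - (2 : ℂ) • e := ⟨_, rfl⟩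
    have huM : u ∈ M := by
      rw [hu]; exact sub_mem (one_mem M) (M.toStarSubalgebra.smul_mem heM _)
    have huu : u * u = 1 := by
      rw [hu, mul_sub, sub_mul, sub_mul, mul_smul_comm, smul_mul_assoc, one_mul, mul_one,
        smul_mul_assoc, mul_smul_comm, hee, one_mul, two_smul, two_smul]
      abel
    have hus : IsSelfAdjoint u := by
      rw [hu, IsSelfAdjoint, star_sub, star_smul, star_one, hep.isSelfAdjoint.star_eq]
      simp
    have hnp : IsStarProjection (u * m * u) := by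
      refine ⟨?_, ?_⟩
      · change u * m * u * (u * m * u) = u * m * u
        calc u * m * u * (u * m * u) = u * m * (u * u) * m * u := by noncomm_ring
          _ = u * (m * m) * u := by rw [huu]; noncomm_ring
          _ = _ := by rw [hmm]
      · rw [IsSelfAdjoint, star_mul, star_mul, hus.star_eq, hmp.isSelfAdjoint.star_eq, mul_assoc]
    have hnn : Nul M A (u * m * u) := by
      intro ψ hψ
      have hc : ∀ y ∈ M, ψ (u * y) = ψ (y * u) := by
        intro y hy
        rw [hu, sub_mul, mul_sub, map_sub, map_sub, one_mul, mul_one, smul_mul_assoc,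
          mul_smul_comm, map_smul, map_smul, hψ.central e he hep y hy]
      rw [mul_assoc, hc _ (mul_mem hm huM), mul_assoc, huu, mul_one]
      exact hmn ψ hψ
    have h1 := hdom _ (mul_mem (mul_mem huM hm) huM) hnp hnn
    -- `u m u m = u m u`
    have h2 : m * u * m = m * u := by
      calc m * u * m = (u * u) * (m * u * m) := by rw [huu, one_mul]
        _ = u * (u * m * u * m) := by noncomm_ring
        _ = u * (u * m * u) := by rw [h1]
        _ = (u * u) * (m * u) := by noncomm_ring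
        _ = m * u := by rw [huu, one_mul]
    have h3 : m * u * m = u * m := by
      have := congrArg star h2
      rwa [star_mul, star_mul, hus.star_eq, hmp.isSelfAdjoint.star_eq, ← mul_assoc] at this
    have h4 : m * u = u * m := by rw [← h2, h3]
    rw [hu, mul_sub, sub_mul, mul_one, one_mul, mul_smul_comm, smul_mul_assoc] at h4
    have h5 : (2 : ℂ) • (m * e) = (2 : ℂ) • (e * m) := sub_right_inj.1 h4
    exact smul_right_injective _ (two_ne_zero' ℂ) h5
  have hmA : m ∈ A := hA.mem hm fun a ha =>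
    (hA.comm_of_proj (y := m) (fun e he hep => hcomm e he hep) a ha).symm
  have hmz : m * z = 0 := mul_eq_zero_of_isNormalExpectation hA hmA hmp hmn hz hzp hE
  refine eq_zero_of_spec hx hx0 fun t ht g hg hgp hle hcg hg1 => ?_
  have hgn := h.spec hx hg hgp ht hle
  have hgm := hdom g hg hgp hgn
  have hzz : z * z = z := hzp.isIdempotentElem.eq
  have hxz : x * (1 - z) = 0 := by
    rw [← hzx, mul_assoc, mul_sub, mul_one, hzz, sub_self, mul_zero]
  have hzx' : (1 - z) * x = 0 := by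
    rw [← hzx, ← mul_assoc, ← mul_assoc, sub_mul, one_mul, hzz, sub_self, zero_mul, zero_mul]
  have hzg : (1 - z) * g = g * (1 - z) := hcg _ (by rw [hxz, hzx'])
  have hzg0 : (1 - z) * g = 0 := by
    ext v
    have h1 : g (((1 - z) * g) v) = ((1 - z) * g) v := by
      have h2 := DFunLike.congr_fun hzg (g v)
      have h3 : (1 - z) (g (g v)) = g ((1 - z) (g v)) := h2
      change g ((1 - z) (g v)) = (1 - z) (g v)
      rw [← h3, proj_apply_apply hgp]
    have h2 := hg1 _ h1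
    have h3 : x (((1 - z) * g) v) = 0 := DFunLike.congr_fun hxz (g v)
    rw [h3, inner_zero_right, Complex.zero_re] at h2
    have h4 : ‖((1 - z) * g) v‖ = 0 := by
      by_contra hne
      have : 0 < ‖((1 - z) * g) v‖ := lt_of_le_of_ne (norm_nonneg _) (Ne.symm hne)
      have := mul_pos ht (pow_pos this 2)
      linarith
    rw [zero_apply]
    exact norm_eq_zero.1 h4
  have hgz : g = z * g := by
    rw [sub_mul, one_mul, sub_eq_zero] at hzg0
    exact hzg0
  have hmg : m * g = g := by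
    have := congrArg star hgm
    rwa [star_mul, hgp.isSelfAdjoint.star_eq, hmp.isSelfAdjoint.star_eq] at this
  rw [← hmg, hgz, ← mul_assoc, hmz, zero_mul]

end Vale.Agent.P078.L

/-! A normal functional commuting with `A` controls the strong operator topology on projections
of the expected corner. -/

namespace Vale.Agent.P078.L

open Vale.Agent.P078
open Filter Topology
open scoped ComplexOrder

variable {H : Type*} [NormedAddCommGroup H] [InnerProductSpace ℂ H] [CompleteSpace H]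
variable {M : VonNeumannAlgebra H} {A : StarSubalgebra ℂ (H →L[ℂ] H)}

theorem centralNormal_sum (s : Finset {ψ : (H →L[ℂ] H) →ₗ[ℂ] ℂ // CentralNormal M A ψ}) :
    CentralNormal M A (∑ ψ ∈ s, ψ.1) := by
  have happ : ∀ x, (∑ ψ ∈ s, ψ.1) x = ∑ ψ ∈ s, ψ.1 x := fun x => by
    rw [LinearMap.sum_apply]
  refine ⟨fun x hx hx0 => ?_, fun e he hep x hx => ?_, ?_⟩
  · rw [happ, Complex.re_sum, Complex.im_sum]
    exact ⟨Finset.sum_nonneg fun ψ _ => (ψ.2.nonneg x hx hx0).1,
      Finset.sum_eq_zero fun ψ _ => (ψ.2.nonneg x hx hx0).2⟩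
  · rw [happ, happ]
    exact Finset.sum_congr rfl fun ψ _ => ψ.2.central e he hep x hx
  · exact (WCont.sum s fun ψ _ => ψ.2.wcont).congr fun x _ => (happ x).symm

/-- a central normal functional controlling finitely many vectors -/
theorem exists_control (hA : IsMASA A M) {z : H →L[ℂ] H} (hz : z ∈ A)
    (hzp : IsStarProjection z) {E : (H →L[ℂ] H) →ₗ[ℂ] (H →L[ℂ] H)}
    (hE : IsNormalExpectation M A z E) (F : Finset H) {δ : ℝ} (hδ : 0 < δ) :
    ∃ ψ : (H →L[ℂ] H) →ₗ[ℂ] ℂ, CentralNormal M A ψ ∧ ∃ κ : ℝ, 0 < κ ∧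
      ∀ e ∈ M, IsStarProjection e → z * e = e → (ψ e).re ≤ κ → ∀ ξ ∈ F, ‖e ξ‖ < δ := by
  classical
  by_contra hcon
  push Not at hcon
  have hzM : z ∈ M := hA.1 hz
  have hex : ∀ i : Finset {ψ : (H →L[ℂ] H) →ₗ[ℂ] ℂ // CentralNormal M A ψ} × ℕ,
      ∃ e ∈ M, IsStarProjection e ∧ z * e = e ∧
        ((∑ ψ ∈ i.1, ψ.1) e).re ≤ 1 / ((i.2 : ℝ) + 1) ∧ ∃ ξ ∈ F, δ ≤ ‖e ξ‖ := by
    intro i
    exact hcon _ (centralNormal_sum i.1) (1 / ((i.2 : ℝ) + 1)) (by positivity)
  choose e heM hep hze heψ ξ hξF hξ using hex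
  obtain ⟨U, hU⟩ : ∃ U : Ultrafilter (Finset {ψ : (H →L[ℂ] H) →ₗ[ℂ] ℂ //
    CentralNormal M A ψ} × ℕ), U = Ultrafilter.of atTop := ⟨_, rfl⟩
  have hUle : (U : Filter (Finset {ψ : (H →L[ℂ] H) →ₗ[ℂ] ℂ //
    CentralNormal M A ψ} × ℕ)) ≤ atTop := by rw [hU]; exact Ultrafilter.of_le _
  obtain ⟨L, hLn, hL⟩ := exists_wot_limit U e 1
    (Eventually.of_forall fun i => (hep i).norm_le) zero_le_one
  have hLM : L ∈ M := mem_of_tendsto' (Eventually.of_forall heM) hL
  have hL0 : 0 ≤ L := nonneg_of_tendsto (Eventually.of_forall fun i => (hep i).nonneg) hL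
  have hezz : ∀ i, z * e i * z = e i := by
    intro i
    have h1 := congrArg star (hze i)
    rw [star_mul, hzp.isSelfAdjoint.star_eq, (hep i).isSelfAdjoint.star_eq] at h1
    rw [hze, h1]
  have hzL : z * L * z = L := by
    refine inner_ext fun ξ η => ?_
    have h1 := hL (z ξ) (z η)
    rw [proj_inner hzp] at h1
    refine tendsto_nhds_unique (h1.congr fun i => ?_) (hL ξ η)
    rw [proj_inner hzp]
    exact congrArg (inner ℂ ξ) (DFunLike.congr_fun (hezz i) η)
  have hnul : Nul M A L := by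
    intro ψ hψ
    have h1 : Tendsto ψ ((U : Filter (Finset {ψ : (H →L[ℂ] H) →ₗ[ℂ] ℂ //
      CentralNormal M A ψ} × ℕ)).map e) (𝓝 (ψ L)) := by
      refine hψ.wcont 1 L _ hLM ?_ fun ξ η => ?_
      · rw [eventually_map]
        exact Eventually.of_forall fun i => ⟨heM i, (hep i).norm_le⟩
      · rw [tendsto_map'_iff]
        exact hL ξ η
    rw [tendsto_map'_iff] at h1
    have h2 : Tendsto (fun i => ψ (e i)) atTop (𝓝 0) := by
      rw [Metric.tendsto_nhds]
      intro ε hε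
      obtain ⟨n, hn⟩ := exists_nat_one_div_lt hε
      filter_upwards [eventually_ge_atTop (({⟨ψ, hψ⟩} : Finset {ψ : (H →L[ℂ] H) →ₗ[ℂ] ℂ //
        CentralNormal M A ψ}), n)] with i hi
      obtain ⟨hi1, hi2⟩ := Prod.mk_le_mk.1 (show (({⟨ψ, hψ⟩} : Finset {ψ : (H →L[ℂ] H) →ₗ[ℂ] ℂ //
        CentralNormal M A ψ}), n) ≤ (i.1, i.2) from hi)
      have h3 := hψ.nonneg (e i) (heM i) (hep i).nonneg
      have h4 : (ψ (e i)).re ≤ ((∑ ψ ∈ i.1, ψ.1) (e i)).re := by
        rw [LinearMap.sum_apply, Complex.re_sum]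
        have hmem : (⟨ψ, hψ⟩ : {ψ : (H →L[ℂ] H) →ₗ[ℂ] ℂ // CentralNormal M A ψ}) ∈ i.1 :=
          hi1 (Finset.mem_singleton_self _)
        exact Finset.single_le_sum
          (f := fun φ : {ψ : (H →L[ℂ] H) →ₗ[ℂ] ℂ // CentralNormal M A ψ} => (φ.1 (e i)).re)
          (fun φ _ => (φ.2.nonneg (e i) (heM i) (hep i).nonneg).1) hmem
      have h5 : 1 / ((i.2 : ℝ) + 1) ≤ 1 / ((n : ℝ) + 1) := by
        have : (n : ℝ) ≤ i.2 := by exact_mod_cast hi2
        gcongr
      rw [dist_zero_right]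
      have h6 : ψ (e i) = (((ψ (e i)).re : ℝ) : ℂ) := Complex.ext (by simp) (by simpa using h3.2)
      rw [h6, Complex.norm_real, Real.norm_of_nonneg h3.1]
      linarith [heψ i]
    exact tendsto_nhds_unique h1 (h2.mono_left hUle)
  have hLz := faithful_of_expected hA hz hzp hE hLM hL0 hzL hnul
  -- contradiction on `F`
  have h1 : Tendsto (fun i => (∑ ζ ∈ F, inner ℂ ζ (e i ζ)).re) U
      (𝓝 (∑ ζ ∈ F, inner ℂ ζ (L ζ)).re) :=
    (Complex.continuous_re.tendsto _).comp (tendsto_finsetSum F fun ζ _ => hL ζ ζ)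
  have h2 : δ ^ 2 ≤ (∑ ζ ∈ F, inner ℂ ζ (L ζ)).re := by
    refine ge_of_tendsto h1 (Eventually.of_forall fun i => ?_)
    rw [Complex.re_sum]
    refine le_trans ?_ (Finset.single_le_sum (f := fun ζ => (inner ℂ ζ (e i ζ)).re)
      (fun ζ _ => inner_nonneg_of_nonneg (hep i).nonneg ζ) (hξF i))
    rw [proj_inner_self (hep i)]
    exact pow_le_pow_left₀ hδ.le (hξ i) 2
  rw [hLz] at h2
  simp only [zero_apply, inner_zero_right, Finset.sum_const_zero, Complex.zero_re] at h2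
  have : 0 < δ ^ 2 := by positivity
  linarith

/-- strongly small bounded sets are small for normal functionals -/
theorem small_of_strong {ψ : (H →L[ℂ] H) →ₗ[ℂ] ℂ} (hψ : WCont M ψ) {D : Set (H →L[ℂ] H)}
    {C : ℝ} (hD : ∀ d ∈ D, d ∈ M ∧ ‖d‖ ≤ C)
    (h : ∀ G : Finset H, ∀ δ : ℝ, 0 < δ → ∃ d ∈ D, ∀ ζ ∈ G, ‖d ζ‖ < δ) {κ : ℝ} (hκ : 0 < κ) :
    ∃ d ∈ D, (ψ (star d * d)).re < κ := by
  classical
  have hex : ∀ i : Finset H × ℕ, ∃ d ∈ D, ∀ ζ ∈ i.1, ‖d ζ‖ < 1 / ((i.2 : ℝ) + 1) :=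
    fun i => h i.1 _ (by positivity)
  choose d hdD hd using hex
  have hlim : ∀ ζ : H, Tendsto (fun i => d i ζ) atTop (𝓝 0) := by
    intro ζ
    rw [Metric.tendsto_nhds]
    intro ε hε
    obtain ⟨n, hn⟩ := exists_nat_one_div_lt hε
    filter_upwards [eventually_ge_atTop (({ζ} : Finset H), n)] with i hi
    obtain ⟨hi1, hi2⟩ := Prod.mk_le_mk.1 (show (({ζ} : Finset H), n) ≤ (i.1, i.2) from hi)
    have h5 : 1 / ((i.2 : ℝ) + 1) ≤ 1 / ((n : ℝ) + 1) := by
      have : (n : ℝ) ≤ i.2 := by exact_mod_cast hi2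
      gcongr
    rw [dist_zero_right]
    have := hd i ζ (hi1 (Finset.mem_singleton_self _))
    linarith
  have h1 : Tendsto ψ ((atTop : Filter (Finset H × ℕ)).map fun i => star (d i) * d i)
      (𝓝 (ψ 0)) := by
    refine hψ (C ^ 2) 0 _ (zero_mem M) ?_ fun ξ η => ?_
    · rw [eventually_map]
      refine Eventually.of_forall fun i => ⟨mul_mem (star_mem (hD _ (hdD i)).1) (hD _ (hdD i)).1,
        ?_⟩
      have h2 := (hD _ (hdD i)).2
      have h3 : 0 ≤ ‖d i‖ := norm_nonneg _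
      calc ‖star (d i) * d i‖ ≤ ‖star (d i)‖ * ‖d i‖ := norm_mul_le _ _
        _ = ‖d i‖ ^ 2 := by rw [norm_star, sq]
        _ ≤ C ^ 2 := by gcongr
    · rw [tendsto_map'_iff, zero_apply, inner_zero_right]
      have h2 := (hlim ξ).inner (𝕜 := ℂ) (hlim η)
      rw [inner_zero_right] at h2
      refine h2.congr fun i => ?_
      have h3 : inner ℂ ξ ((star (d i) * d i) η) = inner ℂ (d i ξ) (d i η) := by
        have := star_apply_inner (star (d i)) ξ (d i η)
        rw [star_star] at this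
        exact this.symm
      exact h3.symm
  rw [map_zero, tendsto_map'_iff] at h1
  have h2 := (Complex.continuous_re.tendsto _).comp h1
  rw [Complex.zero_re] at h2
  obtain ⟨i, hi⟩ := (h2.eventually (gt_mem_nhds hκ)).exists
  exact ⟨d i, hdD i, hi⟩

end Vale.Agent.P078.L

/-! The double commutant theorem and the density theorem of Kaplansky. -/

namespace Vale.Agent.P078.L

open Vale.Agent.P078
open Filter Topology

variable {H : Type*} [NormedAddCommGroup H] [InnerProductSpace ℂ H] [CompleteSpace H]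

/-- the diagonal amplification -/
noncomputable def amp (m : ℕ) (T : H →L[ℂ] H) :
    PiLp 2 (fun _ : Fin m => H) →L[ℂ] PiLp 2 (fun _ : Fin m => H) :=
  ((PiLp.continuousLinearEquiv 2 ℂ (fun _ : Fin m => H)).symm :
    (Fin m → H) →L[ℂ] PiLp 2 (fun _ : Fin m => H)).comp
    (ContinuousLinearMap.pi fun k => T.comp (PiLp.proj 2 (fun _ : Fin m => H) k))

theorem amp_apply (m : ℕ) (T : H →L[ℂ] H) (v : PiLp 2 (fun _ : Fin m => H)) (k : Fin m) :
    amp m T v k = T (v k) := rfl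

/-- the coordinate embedding -/
noncomputable def inj (m : ℕ) (k : Fin m) : H →L[ℂ] PiLp 2 (fun _ : Fin m => H) :=
  ((PiLp.continuousLinearEquiv 2 ℂ (fun _ : Fin m => H)).symm :
    (Fin m → H) →L[ℂ] PiLp 2 (fun _ : Fin m => H)).comp
    (ContinuousLinearMap.single ℂ (fun _ : Fin m => H) k)

theorem inj_apply (m : ℕ) (k j : Fin m) (w : H) :
    inj m k w j = (Pi.single k w : Fin m → H) j := rfl

theorem amp_inj (m : ℕ) (T : H →L[ℂ] H) (k : Fin m) (w : H) :
    amp m T (inj m k w) = inj m k (T w) := by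
  ext j
  rw [amp_apply, inj_apply, inj_apply]
  by_cases h : j = k
  · subst h; rw [Pi.single_eq_same, Pi.single_eq_same]
  · rw [Pi.single_eq_of_ne h, Pi.single_eq_of_ne h, map_zero]

theorem sum_inj (m : ℕ) (v : PiLp 2 (fun _ : Fin m => H)) : ∑ k, inj m k (v k) = v := by
  ext j
  have h1 : (∑ k, inj m k (v k)) j = ∑ k, (inj m k (v k)) j := by
    have := map_sum (PiLp.proj 2 (fun _ : Fin m => H) j (𝕜 := ℂ)) (fun k => inj m k (v k))
      Finset.univ
    exact this
  rw [h1, Finset.sum_eq_single j]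
  · rw [inj_apply, Pi.single_eq_same]
  · intro k _ hk
    rw [inj_apply, Pi.single_eq_of_ne hk.symm]
  · intro h
    exact absurd (Finset.mem_univ j) h

theorem amp_star (m : ℕ) (T : H →L[ℂ] H) : star (amp m T) = amp m (star T) := by
  refine inner_ext fun u v => ?_
  have h1 : inner ℂ u (star (amp m T) v) = inner ℂ (amp m T u) v := by
    have := star_apply_inner (star (amp m T)) u v
    rw [star_star] at this
    exact this.symm
  rw [h1, PiLp.inner_apply, PiLp.inner_apply]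
  refine Finset.sum_congr rfl fun k _ => ?_
  rw [amp_apply, amp_apply]
  have := star_apply_inner (star T) (u k) (v k)
  rw [star_star] at this
  exact this

/-- the double commutant theorem, in weak form -/
theorem weak_bicommutant (𝒜 : StarSubalgebra ℂ (H →L[ℂ] H)) {T : H →L[ℂ] H}
    (hT : ∀ S : H →L[ℂ] H, (∀ y ∈ 𝒜, S * y = y * S) → S * T = T * S) {m : ℕ} (u v : Fin m → H)
    (h : ∀ y ∈ 𝒜, ∑ k, inner ℂ (u k) (y (v k)) = 0) : ∑ k, inner ℂ (u k) (T (v k)) = 0 := by
  obtain ⟨V, hV⟩ : ∃ V : PiLp 2 (fun _ : Fin m => H), V = WithLp.toLp 2 v := ⟨_, rfl⟩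
  obtain ⟨U, hU⟩ : ∃ U : PiLp 2 (fun _ : Fin m => H), U = WithLp.toLp 2 u := ⟨_, rfl⟩
  have hVk : ∀ k, V k = v k := fun k => by rw [hV]
  have hUk : ∀ k, U k = u k := fun k => by rw [hU]
  let S : Submodule ℂ (PiLp 2 (fun _ : Fin m => H)) :=
    { carrier := {w | ∃ y ∈ 𝒜, w = amp m y V}
      add_mem' := by
        rintro _ _ ⟨y, hy, rfl⟩ ⟨y', hy', rfl⟩
        refine ⟨y + y', add_mem hy hy', ?_⟩
        ext k
        rfl
      zero_mem' := ⟨0, zero_mem _, by ext k; rfl⟩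
      smul_mem' := by
        rintro c _ ⟨y, hy, rfl⟩
        refine ⟨c • y, 𝒜.smul_mem hy c, ?_⟩
        ext k
        rfl }
  let K := S.topologicalClosure
  have hKc : IsClosed (K : Set (PiLp 2 (fun _ : Fin m => H))) := S.isClosed_topologicalClosure
  have : CompleteSpace K := hKc.completeSpace_coe
  obtain ⟨P, hP⟩ : ∃ P, P = K.starProjection := ⟨_, rfl⟩
  have hinv : ∀ y ∈ 𝒜, ∀ w ∈ K, amp m y w ∈ K := by
    intro y hy w hw
    have h1 : ∀ w ∈ S, amp m y w ∈ S := by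
      rintro _ ⟨y', hy', rfl⟩
      refine ⟨y * y', mul_mem hy hy', ?_⟩
      ext k
      rfl
    have h2 : S ≤ K.comap (amp m y : PiLp 2 (fun _ : Fin m => H) →ₗ[ℂ] _) :=
      fun v hv => S.le_topologicalClosure (h1 v hv)
    have h3 : IsClosed ((K.comap (amp m y : PiLp 2 (fun _ : Fin m => H) →ₗ[ℂ] _) :
        Submodule ℂ _) : Set (PiLp 2 (fun _ : Fin m => H))) :=
      hKc.preimage (amp m y).continuous
    exact (S.topologicalClosure_minimal h2 h3) hw
  have hcomm : ∀ y ∈ 𝒜, amp m y * P = P * amp m y := by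
    intro y hy
    rw [hP]
    refine commute_starProjection K (hinv y hy) ?_
    rw [amp_star]
    exact hinv _ (star_mem hy)
  have hVK : V ∈ K := S.le_topologicalClosure ⟨1, one_mem _, by ext k; rfl⟩
  have hPV : P V = V := by rw [hP]; exact K.starProjection_eq_self_iff.2 hVK
  -- the entries of the projection commute with `T`
  have hent : ∀ j k : Fin m, ∀ w : H, (P (inj m k (T w))) j = T ((P (inj m k w)) j) := by
    intro j k w
    have h1 := hT ((PiLp.proj 2 (fun _ : Fin m => H) j).comp (P.comp (inj m k))) (by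
      intro y hy
      ext w
      change (P (inj m k (y w))) j = y ((P (inj m k w)) j)
      have h2 := DFunLike.congr_fun (hcomm y hy) (inj m k w)
      have h3 : amp m y (P (inj m k w)) = P (amp m y (inj m k w)) := h2
      rw [amp_inj] at h3
      rw [← h3, amp_apply])
    exact DFunLike.congr_fun h1 w
  have hTV : P (amp m T V) = amp m T V := by
    ext j
    have h1 : amp m T V = ∑ k, inj m k (T (V k)) := by
      rw [← sum_inj m (amp m T V)]
      rfl
    have hpr : ∀ f : Fin m → PiLp 2 (fun _ : Fin m => H), (∑ k, f k) j = ∑ k, (f k) j := by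
      intro f
      exact map_sum (PiLp.proj 2 (fun _ : Fin m => H) j (𝕜 := ℂ)) f Finset.univ
    rw [amp_apply, h1, map_sum, hpr]
    simp only [hent]
    rw [← map_sum, ← hpr, ← map_sum, sum_inj, hPV]
  have hTK : amp m T V ∈ K := by
    rw [← hTV, hP]
    exact K.starProjection_apply_mem _
  have hUS : ∀ w ∈ K, inner ℂ U w = 0 := by
    intro w hw
    have h1 : S ≤ LinearMap.ker ((innerSL ℂ U : PiLp 2 (fun _ : Fin m => H) →L[ℂ] ℂ) :
        PiLp 2 (fun _ : Fin m => H) →ₗ[ℂ] ℂ) := by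
      rintro _ ⟨y, hy, rfl⟩
      rw [LinearMap.mem_ker]
      change inner ℂ U (amp m y V) = 0
      rw [PiLp.inner_apply, ← h y hy]
      refine Finset.sum_congr rfl fun k _ => ?_
      rw [amp_apply, hVk, hUk]
    have h2 := S.topologicalClosure_minimal h1
      (ContinuousLinearMap.isClosed_ker (innerSL ℂ U)) hw
    exact h2
  have h1 := hUS _ hTK
  rw [PiLp.inner_apply] at h1
  rw [← h1]
  refine Finset.sum_congr rfl fun k _ => ?_
  rw [amp_apply, hVk, hUk]

end Vale.Agent.P078.L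

/-! Kaplansky's density theorem for self-adjoint elements. -/

namespace Vale.Agent.P078.L

open Vale.Agent.P078
open Filter Topology

variable {H : Type*} [NormedAddCommGroup H] [InnerProductSpace ℂ H] [CompleteSpace H]

/-- self-adjoint elements of the bicommutant are strong limits of self-adjoint elements -/
theorem dense_sa (𝒜 : StarSubalgebra ℂ (H →L[ℂ] H)) {T : H →L[ℂ] H} (hTs : IsSelfAdjoint T)
    (hT : ∀ S : H →L[ℂ] H, (∀ y ∈ 𝒜, S * y = y * S) → S * T = T * S) (F : Finset H) {δ : ℝ}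
    (hδ : 0 < δ) : ∃ y ∈ 𝒜, IsSelfAdjoint y ∧ ∀ ζ ∈ F, ‖(T - y) ζ‖ < δ := by
  obtain ⟨m, ξ, hξ⟩ : ∃ (m : ℕ) (ξ : Fin m → H), ∀ ζ ∈ F, ∃ k, ξ k = ζ :=
    ⟨F.card, fun i => (F.equivFin.symm i : H), fun u hu => ⟨F.equivFin ⟨u, hu⟩, by simp⟩⟩
  obtain ⟨Ξ, hΞ⟩ : ∃ Ξ : PiLp 2 (fun _ : Fin m => H), Ξ = WithLp.toLp 2 ξ := ⟨_, rfl⟩
  have hΞk : ∀ k, Ξ k = ξ k := fun k => by rw [hΞ]
  obtain ⟨V, hV⟩ : ∃ V : Set (PiLp 2 (fun _ : Fin m => H)),
    V = {w | ∃ y ∈ 𝒜, IsSelfAdjoint y ∧ w = amp m y Ξ} := ⟨_, rfl⟩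
  have hmem : ∀ w, w ∈ V ↔ ∃ y ∈ 𝒜, IsSelfAdjoint y ∧ w = amp m y Ξ := fun w => by rw [hV]; rfl
  rcases real_residual V ((hmem _).2 ⟨0, zero_mem _, IsSelfAdjoint.zero _, by ext k; rfl⟩)
    (fun a ha b hb => by
      obtain ⟨y, hy, hys, rfl⟩ := (hmem _).1 ha
      obtain ⟨y', hy', hys', rfl⟩ := (hmem _).1 hb
      exact (hmem _).2 ⟨y + y', add_mem hy hy', hys.add hys', by ext k; rfl⟩)
    (fun c a ha => by
      obtain ⟨y, hy, hys, rfl⟩ := (hmem _).1 ha
      refine (hmem _).2 ⟨(c : ℂ) • y, 𝒜.smul_mem hy _, ?_, by ext k; rfl⟩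
      rw [IsSelfAdjoint, star_smul, hys.star_eq, Complex.star_def, Complex.conj_ofReal])
    (amp m T Ξ) with h | ⟨d, hd0, hd⟩
  · obtain ⟨w, hw, hwd⟩ := Metric.mem_closure_iff.1 h δ hδ
    obtain ⟨y, hy, hys, rfl⟩ := (hmem _).1 hw
    refine ⟨y, hy, hys, fun ζ hζ => ?_⟩
    obtain ⟨k, rfl⟩ := hξ ζ hζ
    rw [dist_eq_norm] at hwd
    refine lt_of_le_of_lt ?_ hwd
    have h1 := PiLp.norm_apply_le (amp m T Ξ - amp m y Ξ) k
    refine le_trans (le_of_eq ?_) h1
    rw [PiLp.sub_apply, amp_apply, amp_apply, hΞk, sub_apply]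
  · exfalso
    -- the functional
    obtain ⟨φ, hφ⟩ : ∃ φ : (H →L[ℂ] H) →ₗ[ℂ] ℂ, ∀ y, φ y =
        ∑ k, inner ℂ (d k) (y (ξ k)) + ∑ k, inner ℂ (ξ k) (y (d k)) :=
      ⟨{ toFun := fun y => ∑ k, inner ℂ (d k) (y (ξ k)) + ∑ k, inner ℂ (ξ k) (y (d k))
         map_add' := fun a b => by
           simp only [add_apply, inner_add_right, Finset.sum_add_distrib]
           ring
         map_smul' := fun c a => by
           simp only [smul_apply, inner_smul_right, RingHom.id_apply, smul_eq_mul, mul_add,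
             Finset.mul_sum] }, fun _ => rfl⟩
    have hsa : ∀ a : H →L[ℂ] H, IsSelfAdjoint a →
        φ a = ((2 * (inner ℂ (amp m a Ξ) d).re : ℝ) : ℂ) := by
      intro a ha
      have h1 : inner ℂ (amp m a Ξ) d = ∑ k, inner ℂ (a (ξ k)) (d k) := by
        rw [PiLp.inner_apply]
        refine Finset.sum_congr rfl fun k _ => ?_
        rw [amp_apply, hΞk]
      have h2 : ∑ k, inner ℂ (ξ k) (a (d k)) = ∑ k, inner ℂ (a (ξ k)) (d k) := by
        refine Finset.sum_congr rfl fun k _ => ?_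
        have := star_apply_inner a (ξ k) (d k)
        rw [ha.star_eq] at this
        exact this.symm
      have h3 : ∑ k, inner ℂ (d k) (a (ξ k)) =
          (starRingEnd ℂ) (∑ k, inner ℂ (a (ξ k)) (d k)) := by
        rw [map_sum]
        refine Finset.sum_congr rfl fun k _ => ?_
        rw [inner_conj_symm]
      rw [hφ, h2, h3, ← h1, add_comm, Complex.add_conj]
    have h0 : ∀ y ∈ 𝒜, φ y = 0 := by
      have hsa0 : ∀ a ∈ 𝒜, IsSelfAdjoint a → φ a = 0 := by
        intro a ha has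
        rw [hsa a has, hd0 _ ((hmem _).2 ⟨a, ha, has, rfl⟩)]
        simp
      intro y hy
      have e1 := hsa0 (y + star y) (add_mem hy (star_mem hy)) (IsSelfAdjoint.add_star_self y)
      have e2 := hsa0 (Complex.I • (y - star y)) (𝒜.smul_mem (sub_mem hy (star_mem hy)) _) (by
        rw [IsSelfAdjoint, star_smul, star_sub, star_star, Complex.star_def, Complex.conj_I,
          neg_smul, ← smul_neg, neg_sub])
      rw [map_smul, smul_eq_mul, mul_eq_zero, map_sub] at e2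
      rw [map_add] at e1
      have e3 := e2.resolve_left Complex.I_ne_zero
      have e4 : (2 : ℂ) * φ y = 0 := by linear_combination e1 + e3
      exact (mul_eq_zero.1 e4).resolve_left two_ne_zero
    have h1 : φ T = 0 := by
      have h2 := weak_bicommutant 𝒜 hT (m := m + m) (Fin.append (fun k => d k) ξ)
        (Fin.append ξ (fun k => d k)) (fun y hy => by
          rw [Fin.sum_univ_add]
          simp only [Fin.append_left, Fin.append_right]
          rw [← hφ]
          exact h0 y hy)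
      rw [Fin.sum_univ_add] at h2
      simp only [Fin.append_left, Fin.append_right] at h2
      rw [hφ]
      exact h2
    rw [hsa T hTs, Complex.ofReal_eq_zero] at h1
    linarith

/-- the function `2 t / (1 + t ^ 2)` -/
noncomputable def fK (t : ℝ) : ℝ := 2 * ((1 + t ^ 2)⁻¹ * t)

/-- the resolvent function -/
noncomputable def rK (t : ℝ) : ℝ := (1 + t ^ 2)⁻¹

theorem rK_cont : Continuous rK := by
  unfold rK
  refine Continuous.inv₀ (by fun_prop) fun t => ?_
  positivity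

theorem fK_cont : Continuous fK := by
  unfold fK
  exact continuous_const.mul (rK_cont.mul continuous_id)

theorem fK_le (t : ℝ) : |fK t| ≤ 1 := by
  unfold fK
  have h : 0 < 1 + t ^ 2 := by positivity
  rw [abs_le]
  have e : 2 * ((1 + t ^ 2)⁻¹ * t) = 2 * t / (1 + t ^ 2) := by
    rw [inv_mul_eq_div]; ring
  rw [e, le_div_iff₀ h, div_le_iff₀ h]
  constructor
  · nlinarith [sq_nonneg (1 + t)]
  · nlinarith [sq_nonneg (1 - t)]

theorem rK_le (t : ℝ) : |rK t| ≤ 1 := by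
  unfold rK
  have h : 0 < (1 + t ^ 2)⁻¹ := by positivity
  rw [abs_of_pos h]
  apply inv_le_one_of_one_le₀
  nlinarith [sq_nonneg t]

theorem cfc_rK {y : H →L[ℂ] H} (hy : IsSelfAdjoint y) :
    cfc rK y * (1 + y * y) = 1 ∧ (1 + y * y) * cfc rK y = 1 ∧ ‖cfc rK y‖ ≤ 1 ∧
      cfc fK y = (2 : ℝ) • (cfc rK y * y) ∧ cfc fK y = (2 : ℝ) • (y * cfc rK y) ∧
      ‖cfc fK y‖ ≤ 1 := by
  have h1 : cfc (fun t : ℝ => 1 + t ^ 2) y = 1 + y * y := by
    rw [cfc_add (fun _ : ℝ => 1) (fun t : ℝ => t ^ 2) (a := y), cfc_const_one ℝ y,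
      cfc_pow_id y 2, sq]
  have h2 : cfc rK y * (1 + y * y) = 1 := by
    rw [← h1, ← cfc_mul rK (fun t : ℝ => 1 + t ^ 2) y rK_cont.continuousOn (by fun_prop),
      ← cfc_const_one ℝ y]
    refine cfc_congr fun t _ => ?_
    unfold rK
    have : 1 + t ^ 2 ≠ 0 := by positivity
    exact inv_mul_cancel₀ this
  have h3 : Commute (cfc rK y) y := by
    exact Commute.cfc_real (Commute.refl y) rK
  have h4 : (1 + y * y) * cfc rK y = 1 := by
    have h6 : Commute (cfc rK y) (1 + y * y) :=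
      (Commute.one_right _).add_right (h3.mul_right h3)
    rw [← h6.eq, h2]
  have h5 : cfc fK y = (2 : ℝ) • (cfc rK y * y) := by
    have e1 : cfc rK y * y = cfc (fun t : ℝ => rK t * t) y := by
      rw [cfc_mul rK (fun t : ℝ => t) y rK_cont.continuousOn (by fun_prop), cfc_id' ℝ y]
    rw [e1, ← cfc_const_mul (2 : ℝ) (fun t : ℝ => rK t * t) y
      ((rK_cont.mul continuous_id).continuousOn)]
    rfl
  refine ⟨h2, h4, norm_cfc_le zero_le_one fun t _ => rK_le t, h5, by rw [h5, h3.eq],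
    norm_cfc_le zero_le_one fun t _ => fK_le t⟩

/-- the inverse function -/
noncomputable def gK (s : ℝ) : ℝ := s / (1 + Real.sqrt (1 - s ^ 2))

theorem gK_cont : Continuous gK := by
  unfold gK
  refine Continuous.div continuous_id (by fun_prop) fun t => ?_
  have := Real.sqrt_nonneg (1 - t ^ 2)
  positivity

theorem fK_gK {s : ℝ} (hs : |s| ≤ 1) : fK (gK s) = s := by
  have h1 : 0 ≤ 1 - s ^ 2 := by
    have := (sq_le_one_iff_abs_le_one s).2 hs
    linarith
  obtain ⟨r, hr⟩ : ∃ r, r = Real.sqrt (1 - s ^ 2) := ⟨_, rfl⟩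
  have hr0 : 0 ≤ r := by rw [hr]; exact Real.sqrt_nonneg _
  have hr2 : r ^ 2 = 1 - s ^ 2 := by rw [hr]; exact Real.sq_sqrt h1
  have hs2 : s ^ 2 = 1 - r ^ 2 := by linarith
  unfold fK gK
  rw [← hr]
  have h2 : (0 : ℝ) < 1 + r := by positivity
  have h3 : 1 + (s / (1 + r)) ^ 2 = 2 / (1 + r) := by
    rw [div_pow, hs2]
    field_simp
    ring
  rw [h3]
  field_simp

/-- Kaplansky's density theorem -/
theorem kaplansky (𝒜 : StarSubalgebra ℂ (H →L[ℂ] H))
    (hcl : ∀ y ∈ 𝒜, IsSelfAdjoint y → cfc fK y ∈ 𝒜) {x : H →L[ℂ] H} (hxs : IsSelfAdjoint x)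
    (hx : ∀ S : H →L[ℂ] H, (∀ y ∈ 𝒜, S * y = y * S) → S * x = x * S) (hx1 : ‖x‖ ≤ 1)
    (F : Finset H) {δ : ℝ} (hδ : 0 < δ) :
    ∃ y ∈ 𝒜, IsSelfAdjoint y ∧ ‖y‖ ≤ 1 ∧ ∀ ζ ∈ F, ‖(x - y) ζ‖ < δ := by
  classical
  obtain ⟨T, hT⟩ : ∃ T, T = cfc gK x := ⟨_, rfl⟩
  have hTs : IsSelfAdjoint T := by rw [hT]; exact cfc_predicate gK x
  have hTx : cfc fK T = x := by
    rw [hT, ← cfc_comp fK gK x hxs fK_cont.continuousOn gK_cont.continuousOn]
    conv_rhs => rw [← cfc_id ℝ x]
    refine cfc_congr fun t ht => ?_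
    rw [Function.comp_apply, id]
    refine fK_gK ?_
    have h1 := norm_apply_le_norm_cfc (id : ℝ → ℝ) x ht
    rw [cfc_id ℝ x] at h1
    exact h1.trans hx1
  have hTc : ∀ S : H →L[ℂ] H, (∀ y ∈ 𝒜, S * y = y * S) → S * T = T * S := by
    intro S hS
    have h1 : Commute x S := (hx S hS).symm
    rw [hT]
    exact (Commute.cfc_real h1 gK).eq.symm
  obtain ⟨hS1, hS2, hS3, hS4, hS5, hS6⟩ := cfc_rK hTs
  obtain ⟨S, hS⟩ : ∃ S, S = cfc rK T := ⟨_, rfl⟩
  rw [← hS] at hS1 hS2 hS3 hS4 hS5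
  rw [hTx] at hS4 hS5
  obtain ⟨y, hyA, hys, hy⟩ := dense_sa 𝒜 hTs hTc (F.image S ∪ F.image x) (δ := δ / 4)
    (by positivity)
  obtain ⟨hR1, hR2, hR3, hR4, hR5, hR6⟩ := cfc_rK hys
  refine ⟨cfc fK y, hcl y hyA hys, cfc_predicate fK y, hR6, fun ζ hζ => ?_⟩
  obtain ⟨R, hR⟩ : ∃ R, R = cfc rK y := ⟨_, rfl⟩
  obtain ⟨y', hy'⟩ : ∃ y', y' = cfc fK y := ⟨_, rfl⟩
  rw [← hR] at hR1 hR2 hR3 hR4 hR5
  rw [← hy'] at hR4 hR5 hR6 ⊢
  have key : x - y' = (2 : ℝ) • (R * ((T - y) * S)) - (2 : ℝ)⁻¹ • (y' * ((T - y) * x)) := by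
    have e1 : (2 : ℝ)⁻¹ • (y' * ((T - y) * x)) = (2 : ℝ) • (R * y * ((T - y) * (T * S))) := by
      rw [hR4, hS5]
      simp only [smul_mul_assoc, mul_smul_comm, smul_smul]
      norm_num
    have e2 : R * ((T - y) * S) - R * y * ((T - y) * (T * S)) =
        (R * (1 + y * y)) * T * S - R * y * ((1 + T * T) * S) := by
      noncomm_ring
    rw [e1, ← smul_sub, e2, hR1, hS2, one_mul, mul_one, smul_sub, ← hS5, ← hR4]
  rw [key]
  have h1 : ‖(T - y) (S ζ)‖ < δ / 4 :=
    hy _ (Finset.mem_union_left _ (Finset.mem_image_of_mem _ hζ))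
  have h2 : ‖(T - y) (x ζ)‖ < δ / 4 :=
    hy _ (Finset.mem_union_right _ (Finset.mem_image_of_mem _ hζ))
  rw [sub_apply]
  refine (norm_sub_le _ _).trans_lt ?_
  have h3 : ‖((2 : ℝ) • (R * ((T - y) * S))) ζ‖ ≤ 2 * (δ / 4) := by
    have e : ((2 : ℝ) • (R * ((T - y) * S))) ζ = (2 : ℝ) • R ((T - y) (S ζ)) := rfl
    rw [e, norm_smul, Real.norm_of_nonneg (by norm_num : (0 : ℝ) ≤ 2)]
    have := R.le_opNorm ((T - y) (S ζ))
    have h5 : ‖R‖ * ‖(T - y) (S ζ)‖ ≤ 1 * (δ / 4) := by gcongr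
    linarith
  have h4 : ‖((2 : ℝ)⁻¹ • (y' * ((T - y) * x))) ζ‖ ≤ 2⁻¹ * (δ / 4) := by
    have e : ((2 : ℝ)⁻¹ • (y' * ((T - y) * x))) ζ = (2 : ℝ)⁻¹ • y' ((T - y) (x ζ)) := rfl
    rw [e, norm_smul, Real.norm_of_nonneg (by norm_num : (0 : ℝ) ≤ 2⁻¹)]
    have := y'.le_opNorm ((T - y) (x ζ))
    have h5 : ‖y'‖ * ‖(T - y) (x ζ)‖ ≤ 1 * (δ / 4) := by gcongr
    linarith
  linarith

end Vale.Agent.P078.L

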